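import Mathlib

open scoped ENNReal

namespace Vale.Agent.Results.P249.A_DisjointSupports

section
variable {p : ℝ≥0∞} [Fact (1 ≤ p)]

theorem toReal_ge_one (hp : p ≠ ⊤) : 1 ≤ p.toReal := by
  have h1 : (1 : ℝ≥0∞) ≤ p := Fact.out
  have := (ENNReal.toReal_le_toReal ENNReal.one_ne_top hp).mpr h1
  simpa using this

/-- `‖v‖^r` is the sum of the `r`-th powers of the absolute values of the coordinates. -/
theorem norm_rpow_eq (hp : p ≠ ⊤) {κ : Type*} [Fintype κ] (v : PiLp p (fun _ : κ => ℝ)) :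
    ‖v‖ ^ p.toReal = ∑ i, |v.ofLp i| ^ p.toReal := by
  have hr : 0 < p.toReal := lt_of_lt_of_le one_pos (toReal_ge_one hp)
  rw [PiLp.norm_eq_sum hr, ← Real.rpow_mul (Finset.sum_nonneg (fun i _ => by positivity))]
  rw [one_div_mul_cancel hr.ne', Real.rpow_one]
  simp [Real.norm_eq_abs]

theorem abs_sub_rpow_le {r : ℝ} (hr : 1 ≤ r) {u w : ℝ} (hu : 0 ≤ u) (hw : 0 ≤ w) :
    |u - w| ^ r ≤ u ^ r + w ^ r := by
  have hr0 : 0 ≤ r := by linarith
  rcases le_total u w with h | h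
  · have h1 : |u - w| ≤ w := by rw [abs_sub_comm, abs_of_nonneg (by linarith)]; linarith
    calc |u - w| ^ r ≤ w ^ r := Real.rpow_le_rpow (abs_nonneg _) h1 hr0
      _ ≤ u ^ r + w ^ r := by have := Real.rpow_nonneg hu r; linarith
  · have h1 : |u - w| ≤ u := by rw [abs_of_nonneg (by linarith)]; linarith
    calc |u - w| ^ r ≤ u ^ r := Real.rpow_le_rpow (abs_nonneg _) h1 hr0
      _ ≤ u ^ r + w ^ r := by have := Real.rpow_nonneg hw r; linarith

/-- distance between two disjointly supported vectors -/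
theorem disjoint_dist (hp : p ≠ ⊤) {ι : Type*} [Fintype ι] (x y : PiLp p (fun _ : ι => ℝ))
    (h : ∀ k : ι, x.ofLp k = 0 ∨ y.ofLp k = 0) :
    ‖x - y‖ ^ p.toReal = ‖x‖ ^ p.toReal + ‖y‖ ^ p.toReal := by
  have hr : 0 < p.toReal := lt_of_lt_of_le one_pos (toReal_ge_one hp)
  rw [norm_rpow_eq hp, norm_rpow_eq hp, norm_rpow_eq hp, ← Finset.sum_add_distrib]
  apply Finset.sum_congr rfl
  intro k _
  rw [PiLp.sub_apply]
  rcases h k with h0 | h0
  · rw [h0, zero_sub, abs_neg, abs_zero, Real.zero_rpow hr.ne', zero_add]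
  · rw [h0, sub_zero, abs_zero, Real.zero_rpow hr.ne', add_zero]

theorem inner_le {r : ℝ} (hr : 1 ≤ r) {a b : ℝ} (ha : 0 ≤ a) (hb : 0 ≤ b) (q : ℕ)
    (c1 c2 : Fin q) :
    ∑ c : Fin q, |a * (if c1 = c then 1 else 0) - b * (if c2 = c then 1 else 0)| ^ r
      ≤ a ^ r + b ^ r := by
  have hr0 : r ≠ 0 := by linarith
  calc ∑ c : Fin q, |a * (if c1 = c then 1 else 0) - b * (if c2 = c then 1 else 0)| ^ r
      ≤ ∑ c : Fin q, ((if c1 = c then a ^ r else 0) + (if c2 = c then b ^ r else 0)) := by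
        apply Finset.sum_le_sum
        intro c _
        have h := abs_sub_rpow_le hr (u := a * (if c1 = c then 1 else 0))
          (w := b * (if c2 = c then 1 else 0)) (by split_ifs <;> simp [ha])
          (by split_ifs <;> simp [hb])
        refine le_trans h (le_of_eq ?_)
        congr 1
        · split_ifs <;> simp [Real.zero_rpow hr0]
        · split_ifs <;> simp [Real.zero_rpow hr0]
    _ = a ^ r + b ^ r := by
        rw [Finset.sum_add_distrib]
        simp

theorem inner_ge {r : ℝ} {a b : ℝ} (ha : 0 ≤ a) (hb : 0 ≤ b) (q : ℕ)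
    (c1 c2 : Fin q) (hne : c1 ≠ c2) :
    a ^ r + b ^ r ≤
      ∑ c : Fin q, |a * (if c1 = c then 1 else 0) - b * (if c2 = c then 1 else 0)| ^ r := by
  have hsub : ({c1, c2} : Finset (Fin q)) ⊆ Finset.univ := Finset.subset_univ _
  have h1 := Finset.sum_le_sum_of_subset_of_nonneg hsub
    (f := fun c : Fin q => |a * (if c1 = c then 1 else 0) - b * (if c2 = c then 1 else 0)| ^ r)
    (fun c _ _ => Real.rpow_nonneg (abs_nonneg _) r)
  rw [Finset.sum_pair hne] at h1
  refine le_trans (le_of_eq ?_) h1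
  have e1 : (if c2 = c1 then (1 : ℝ) else 0) = 0 := if_neg (fun h => hne h.symm)
  have e2 : (if c1 = c2 then (1 : ℝ) else 0) = 0 := if_neg hne
  simp only [if_true, e1, e2, mul_one, mul_zero, sub_zero, zero_sub, abs_neg, abs_of_nonneg ha,
    abs_of_nonneg hb]

/-- the code vector of a digit string -/
noncomputable def codeVec (p : ℝ≥0∞) (t q : ℕ) (d : Fin t → Fin q) :
    PiLp p (fun _ : Fin t × Fin q => ℝ) :=
  WithLp.toLp p (fun sc : Fin t × Fin q => if d sc.1 = sc.2 then (1 : ℝ) else 0)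

theorem code_rpow (hp : p ≠ ⊤) (t q : ℕ) (d d' : Fin t → Fin q) (a b : ℝ) :
    ‖a • codeVec p t q d - b • codeVec p t q d'‖ ^ p.toReal
      = ∑ s : Fin t, ∑ c : Fin q,
          |a * (if d s = c then 1 else 0) - b * (if d' s = c then 1 else 0)| ^ p.toReal := by
  rw [norm_rpow_eq hp, Fintype.sum_prod_type]
  apply Finset.sum_congr rfl
  intro s _
  apply Finset.sum_congr rfl
  intro c _
  simp [codeVec]

theorem code_upper (hp : p ≠ ⊤) (t q : ℕ) (d d' : Fin t → Fin q) {a b : ℝ} (ha : 0 ≤ a)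
    (hb : 0 ≤ b) :
    ‖a • codeVec p t q d - b • codeVec p t q d'‖ ^ p.toReal
      ≤ (t : ℝ) * (a ^ p.toReal + b ^ p.toReal) := by
  rw [code_rpow hp]
  calc ∑ s : Fin t, ∑ c : Fin q,
          |a * (if d s = c then 1 else 0) - b * (if d' s = c then 1 else 0)| ^ p.toReal
      ≤ ∑ _s : Fin t, (a ^ p.toReal + b ^ p.toReal) :=
        Finset.sum_le_sum (fun s _ => inner_le (toReal_ge_one hp) ha hb q (d s) (d' s))
    _ = (t : ℝ) * (a ^ p.toReal + b ^ p.toReal) := by
        rw [Finset.sum_const, Finset.card_univ, Fintype.card_fin, nsmul_eq_mul]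

theorem code_lower (hp : p ≠ ⊤) (t q : ℕ) (d d' : Fin t → Fin q) (hne : d ≠ d') {a b : ℝ}
    (ha : 0 ≤ a) (hb : 0 ≤ b) :
    a ^ p.toReal + b ^ p.toReal
      ≤ ‖a • codeVec p t q d - b • codeVec p t q d'‖ ^ p.toReal := by
  rw [code_rpow hp]
  obtain ⟨s0, hs0⟩ := Function.ne_iff.mp hne
  refine le_trans (inner_ge ha hb q (d s0) (d' s0) hs0) ?_
  exact Finset.single_le_sum
    (f := fun s : Fin t => ∑ c : Fin q,
          |a * (if d s = c then 1 else 0) - b * (if d' s = c then 1 else 0)| ^ p.toReal)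
    (fun s _ => Finset.sum_nonneg (fun c _ => Real.rpow_nonneg (abs_nonneg _) _))
    (Finset.mem_univ s0)

end

/-- Dimension reduction for disjointly supported point sets. Let `1 ≤ p < ∞` and let `X` be a
finite set of vectors of the space `l_p^m` (coordinates indexed by any finite type `ι`) with
pairwise disjoint supports. If `X` has at most `q ^ t` points, then `X` embeds into `l_p^(t * q)`
with distortion at most `t ^ (1 / p)`: the map `f` does not decrease distances and increases them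
by at most the factor `t ^ (1 / p)`. -/
theorem result (p : ℝ≥0∞) [Fact (1 ≤ p)] (hp : p ≠ ⊤) {ι : Type*} [Fintype ι]
    (X : Finset (PiLp p (fun _ : ι => ℝ)))
    (hdisj : ∀ x ∈ X, ∀ y ∈ X, x ≠ y → ∀ k : ι, x.ofLp k = 0 ∨ y.ofLp k = 0)
    (t q : ℕ) (hcard : X.card ≤ q ^ t) :
    ∃ f : PiLp p (fun _ : ι => ℝ) → PiLp p (fun _ : Fin (t * q) => ℝ),
      ∀ x ∈ X, ∀ y ∈ X,
        ‖x - y‖ ≤ ‖f x - f y‖ ∧ ‖f x - f y‖ ≤ (t : ℝ) ^ (1 / p.toReal) * ‖x - y‖ := by
  classical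
  have hr1 : 1 ≤ p.toReal := toReal_ge_one hp
  have hr : 0 < p.toReal := lt_of_lt_of_le one_pos hr1
  -- injective digit strings for the points of `X`
  have hemb : Nonempty (↥X ↪ (Fin t → Fin q)) := by
    apply Function.Embedding.nonempty_of_card_le
    simp only [Fintype.card_coe, Fintype.card_fun, Fintype.card_fin]
    exact hcard
  obtain ⟨e⟩ := hemb
  let Φ : PiLp p (fun _ : Fin t × Fin q => ℝ) ≃ₗᵢ[ℝ] PiLp p (fun _ : Fin (t * q) => ℝ) :=
    LinearIsometryEquiv.piLpCongrLeft p ℝ ℝ finProdFinEquiv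
  let g : PiLp p (fun _ : ι => ℝ) → PiLp p (fun _ : Fin t × Fin q => ℝ) := fun x =>
    if h : x ∈ X then ‖x‖ • codeVec p t q (e ⟨x, h⟩) else 0
  refine ⟨fun x => Φ (g x), ?_⟩
  intro x hx y hy
  have hΦ : ‖Φ (g x) - Φ (g y)‖ = ‖g x - g y‖ := by
    rw [← map_sub, LinearIsometryEquiv.norm_map]
  rw [hΦ]
  by_cases hxy : x = y
  · subst hxy; simp
  have hgx : g x = ‖x‖ • codeVec p t q (e ⟨x, hx⟩) := by simp only [g]; rw [dif_pos hx]
  have hgy : g y = ‖y‖ • codeVec p t q (e ⟨y, hy⟩) := by simp only [g]; rw [dif_pos hy]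
  have hne : e ⟨x, hx⟩ ≠ e ⟨y, hy⟩ := by
    intro h
    apply hxy
    have := e.injective h
    exact congrArg Subtype.val this
  have hdist := disjoint_dist hp x y (hdisj x hx y hy hxy)
  have hup := code_upper hp t q (e ⟨x, hx⟩) (e ⟨y, hy⟩) (norm_nonneg x) (norm_nonneg y)
  have hlo := code_lower hp t q (e ⟨x, hx⟩) (e ⟨y, hy⟩) hne (norm_nonneg x) (norm_nonneg y)
  rw [← hgx, ← hgy, ← hdist] at hup hlo
  constructor
  · exact (Real.rpow_le_rpow_iff (norm_nonneg _) (norm_nonneg _) hr).mp hlo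
  · have ht : (0 : ℝ) ≤ (t : ℝ) := Nat.cast_nonneg t
    have hpow : ((t : ℝ) ^ (1 / p.toReal) * ‖x - y‖) ^ p.toReal = (t : ℝ) * ‖x - y‖ ^ p.toReal := by
      rw [Real.mul_rpow (Real.rpow_nonneg ht _) (norm_nonneg _), ← Real.rpow_mul ht,
        one_div_mul_cancel hr.ne', Real.rpow_one]
    apply (Real.rpow_le_rpow_iff (norm_nonneg _)
      (mul_nonneg (Real.rpow_nonneg ht _) (norm_nonneg _)) hr).mp
    rw [hpow]
    exact hup

end Vale.Agent.Results.P249.A_DisjointSupports
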