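import Mathlib

open scoped ENNReal

namespace Vale.Agent.Results.P249.B_PolynomialCodes

section
variable {p : ℝ≥0∞} [Fact (1 ≤ p)]

theorem toReal_ge_one (hp : p ≠ ⊤) : 1 ≤ p.toReal := by
  have h1 : (1 : ℝ≥0∞) ≤ p := Fact.out
  have := (ENNReal.toReal_le_toReal ENNReal.one_ne_top hp).mpr h1
  simpa using this

/-- `‖v‖^r` is the sum of the `r`-th powers of the absolute values of the coordinates. -/
theorem norm_rpow_eq (hp : p ≠ ⊤) {κ : Type*} [Fintype κ] (v : PiLp p (fun _ : κ => ℝ)) :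
    ‖v‖ ^ p.toReal = ∑ i, |v.ofLp i| ^ p.toReal := by
  have hr : 0 < p.toReal := lt_of_lt_of_le one_pos (toReal_ge_one hp)
  rw [PiLp.norm_eq_sum hr, ← Real.rpow_mul (Finset.sum_nonneg (fun i _ => by positivity))]
  rw [one_div_mul_cancel hr.ne', Real.rpow_one]
  simp [Real.norm_eq_abs]

theorem abs_sub_rpow_le {r : ℝ} (hr : 1 ≤ r) {u w : ℝ} (hu : 0 ≤ u) (hw : 0 ≤ w) :
    |u - w| ^ r ≤ u ^ r + w ^ r := by
  have hr0 : 0 ≤ r := by linarith
  rcases le_total u w with h | h
  · have h1 : |u - w| ≤ w := by rw [abs_sub_comm, abs_of_nonneg (by linarith)]; linarith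
    calc |u - w| ^ r ≤ w ^ r := Real.rpow_le_rpow (abs_nonneg _) h1 hr0
      _ ≤ u ^ r + w ^ r := by have := Real.rpow_nonneg hu r; linarith
  · have h1 : |u - w| ≤ u := by rw [abs_of_nonneg (by linarith)]; linarith
    calc |u - w| ^ r ≤ u ^ r := Real.rpow_le_rpow (abs_nonneg _) h1 hr0
      _ ≤ u ^ r + w ^ r := by have := Real.rpow_nonneg hw r; linarith

/-- distance between two disjointly supported vectors -/
theorem disjoint_dist (hp : p ≠ ⊤) {ι : Type*} [Fintype ι] (x y : PiLp p (fun _ : ι => ℝ))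
    (h : ∀ k : ι, x.ofLp k = 0 ∨ y.ofLp k = 0) :
    ‖x - y‖ ^ p.toReal = ‖x‖ ^ p.toReal + ‖y‖ ^ p.toReal := by
  have hr : 0 < p.toReal := lt_of_lt_of_le one_pos (toReal_ge_one hp)
  rw [norm_rpow_eq hp, norm_rpow_eq hp, norm_rpow_eq hp, ← Finset.sum_add_distrib]
  apply Finset.sum_congr rfl
  intro k _
  rw [PiLp.sub_apply]
  rcases h k with h0 | h0
  · rw [h0, zero_sub, abs_neg, abs_zero, Real.zero_rpow hr.ne', zero_add]
  · rw [h0, sub_zero, abs_zero, Real.zero_rpow hr.ne', add_zero]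

theorem inner_le {r : ℝ} (hr : 1 ≤ r) {a b : ℝ} (ha : 0 ≤ a) (hb : 0 ≤ b)
    {C : Type*} [Fintype C] [DecidableEq C] (c1 c2 : C) :
    ∑ c : C, |a * (if c1 = c then 1 else 0) - b * (if c2 = c then 1 else 0)| ^ r
      ≤ a ^ r + b ^ r := by
  have hr0 : r ≠ 0 := by linarith
  calc ∑ c : C, |a * (if c1 = c then 1 else 0) - b * (if c2 = c then 1 else 0)| ^ r
      ≤ ∑ c : C, ((if c1 = c then a ^ r else 0) + (if c2 = c then b ^ r else 0)) := by
        apply Finset.sum_le_sum
        intro c _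
        have h := abs_sub_rpow_le hr (u := a * (if c1 = c then 1 else 0))
          (w := b * (if c2 = c then 1 else 0)) (by split_ifs <;> simp [ha])
          (by split_ifs <;> simp [hb])
        refine le_trans h (le_of_eq ?_)
        congr 1
        · split_ifs <;> simp [Real.zero_rpow hr0]
        · split_ifs <;> simp [Real.zero_rpow hr0]
    _ = a ^ r + b ^ r := by
        rw [Finset.sum_add_distrib]
        simp

theorem inner_ge {r : ℝ} {a b : ℝ} (ha : 0 ≤ a) (hb : 0 ≤ b)
    {C : Type*} [Fintype C] [DecidableEq C] (c1 c2 : C) (hne : c1 ≠ c2) :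
    a ^ r + b ^ r ≤
      ∑ c : C, |a * (if c1 = c then 1 else 0) - b * (if c2 = c then 1 else 0)| ^ r := by
  have hsub : ({c1, c2} : Finset C) ⊆ Finset.univ := Finset.subset_univ _
  have h1 := Finset.sum_le_sum_of_subset_of_nonneg hsub
    (f := fun c : C => |a * (if c1 = c then 1 else 0) - b * (if c2 = c then 1 else 0)| ^ r)
    (fun c _ _ => Real.rpow_nonneg (abs_nonneg _) r)
  rw [Finset.sum_pair hne] at h1
  refine le_trans (le_of_eq ?_) h1
  have e1 : (if c2 = c1 then (1 : ℝ) else 0) = 0 := if_neg (fun h => hne h.symm)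
  have e2 : (if c1 = c2 then (1 : ℝ) else 0) = 0 := if_neg hne
  simp only [if_true, e1, e2, mul_one, mul_zero, sub_zero, zero_sub, abs_neg, abs_of_nonneg ha,
    abs_of_nonneg hb]

/-- the code vector of a string `d` of letters of the alphabet `C`, one letter for each
position in `S`: the indicator of the graph of `d` -/
noncomputable def codeVec (p : ℝ≥0∞) {S C : Type*} [Fintype S] [Fintype C] [DecidableEq C]
    (d : S → C) : PiLp p (fun _ : S × C => ℝ) :=
  WithLp.toLp p (fun sc : S × C => if d sc.1 = sc.2 then (1 : ℝ) else 0)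

theorem code_rpow (hp : p ≠ ⊤) {S C : Type*} [Fintype S] [Fintype C] [DecidableEq C]
    (d d' : S → C) (a b : ℝ) :
    ‖a • codeVec p d - b • codeVec p d'‖ ^ p.toReal
      = ∑ s : S, ∑ c : C,
          |a * (if d s = c then 1 else 0) - b * (if d' s = c then 1 else 0)| ^ p.toReal := by
  rw [norm_rpow_eq hp, Fintype.sum_prod_type]
  apply Finset.sum_congr rfl
  intro s _
  apply Finset.sum_congr rfl
  intro c _
  simp [codeVec]

theorem code_upper (hp : p ≠ ⊤) {S C : Type*} [Fintype S] [Fintype C] [DecidableEq C]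
    (d d' : S → C) {a b : ℝ} (ha : 0 ≤ a) (hb : 0 ≤ b) :
    ‖a • codeVec p d - b • codeVec p d'‖ ^ p.toReal
      ≤ (Fintype.card S : ℝ) * (a ^ p.toReal + b ^ p.toReal) := by
  rw [code_rpow hp]
  calc ∑ s : S, ∑ c : C,
          |a * (if d s = c then 1 else 0) - b * (if d' s = c then 1 else 0)| ^ p.toReal
      ≤ ∑ _s : S, (a ^ p.toReal + b ^ p.toReal) :=
        Finset.sum_le_sum (fun s _ => inner_le (toReal_ge_one hp) ha hb (d s) (d' s))
    _ = (Fintype.card S : ℝ) * (a ^ p.toReal + b ^ p.toReal) := by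
        rw [Finset.sum_const, Finset.card_univ, nsmul_eq_mul]

theorem code_lower (hp : p ≠ ⊤) {S C : Type*} [Fintype S] [Fintype C] [DecidableEq C]
    (d d' : S → C) (m : ℕ)
    (hm : m ≤ (Finset.univ.filter (fun s : S => d s ≠ d' s)).card) {a b : ℝ}
    (ha : 0 ≤ a) (hb : 0 ≤ b) :
    (m : ℝ) * (a ^ p.toReal + b ^ p.toReal)
      ≤ ‖a • codeVec p d - b • codeVec p d'‖ ^ p.toReal := by
  rw [code_rpow hp]
  have hnn : 0 ≤ a ^ p.toReal + b ^ p.toReal :=
    add_nonneg (Real.rpow_nonneg ha _) (Real.rpow_nonneg hb _)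
  have hm' : (m : ℝ) ≤ ((Finset.univ.filter (fun s : S => d s ≠ d' s)).card : ℝ) := by
    exact_mod_cast hm
  calc (m : ℝ) * (a ^ p.toReal + b ^ p.toReal)
      ≤ ((Finset.univ.filter (fun s : S => d s ≠ d' s)).card : ℝ)
          * (a ^ p.toReal + b ^ p.toReal) := mul_le_mul_of_nonneg_right hm' hnn
    _ = ∑ _s ∈ Finset.univ.filter (fun s : S => d s ≠ d' s),
          (a ^ p.toReal + b ^ p.toReal) := by
        rw [Finset.sum_const, nsmul_eq_mul]
    _ ≤ ∑ s ∈ Finset.univ.filter (fun s : S => d s ≠ d' s), ∑ c : C,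
          |a * (if d s = c then 1 else 0) - b * (if d' s = c then 1 else 0)| ^ p.toReal :=
        Finset.sum_le_sum (fun s hs => inner_ge ha hb (d s) (d' s) (Finset.mem_filter.mp hs).2)
    _ ≤ ∑ s : S, ∑ c : C,
          |a * (if d s = c then 1 else 0) - b * (if d' s = c then 1 else 0)| ^ p.toReal :=
        Finset.sum_le_sum_of_subset_of_nonneg (Finset.filter_subset _ _)
          (fun s _ _ => Finset.sum_nonneg (fun c _ => Real.rpow_nonneg (abs_nonneg _) _))

end

/-- two distinct polynomials of degree less than `t` over a finite field `F` take different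
values at all but at most `t - 1` points of `F` -/
theorem poly_differ_card {F : Type*} [Field F] [Fintype F] [DecidableEq F] (t : ℕ)
    (P Q : Polynomial F) (hP : P ∈ Polynomial.degreeLT F t) (hQ : Q ∈ Polynomial.degreeLT F t)
    (hne : P ≠ Q) :
    Fintype.card F + 1 ≤ (Finset.univ.filter (fun s : F => P.eval s ≠ Q.eval s)).card + t := by
  have hsub : P - Q ≠ 0 := sub_ne_zero.mpr hne
  have hdeg : (P - Q).degree < t := Polynomial.mem_degreeLT.mp (Submodule.sub_mem _ hP hQ)
  have hnat : (P - Q).natDegree < t := (Polynomial.natDegree_lt_iff_degree_lt hsub).mpr hdeg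
  have hagree : (Finset.univ.filter (fun s : F => P.eval s = Q.eval s)).card
      ≤ (P - Q).natDegree := by
    apply Polynomial.card_le_degree_of_subset_roots
    intro s hs
    rw [Polynomial.mem_roots hsub]
    have hs' : P.eval s = Q.eval s := by simpa using hs
    simp [Polynomial.IsRoot, hs']
  have hsplit : (Finset.univ.filter (fun s : F => P.eval s = Q.eval s)).card
      + (Finset.univ.filter (fun s : F => P.eval s ≠ Q.eval s)).card = Fintype.card F := by
    rw [← Finset.card_univ]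
    exact Finset.card_filter_add_card_filter_not (s := (Finset.univ : Finset F))
      (fun s : F => P.eval s = Q.eval s)
  omega

/-- Dimension reduction for disjointly supported point sets at distortion close to one. Let
`1 ≤ p < ∞` and let `X` be a finite set of vectors of the space `l_p^m` (coordinates indexed by
any finite type `ι`) with pairwise disjoint supports. If `q` is a prime, `t ≤ q` and `X` has at
most `q ^ t` points, then there is a map `f` of `X` into `l_p^(q * q)` with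
`(q + 1 - t) ^ (1 / p) * ‖x - y‖ ≤ ‖f x - f y‖ ≤ q ^ (1 / p) * ‖x - y‖` for all `x`, `y` in `X`,
that is, an embedding of distortion at most `(q / (q + 1 - t)) ^ (1 / p)`. -/
theorem result (p : ℝ≥0∞) [Fact (1 ≤ p)] (hp : p ≠ ⊤) {ι : Type*} [Fintype ι]
    (X : Finset (PiLp p (fun _ : ι => ℝ)))
    (hdisj : ∀ x ∈ X, ∀ y ∈ X, x ≠ y → ∀ k : ι, x.ofLp k = 0 ∨ y.ofLp k = 0)
    (t q : ℕ) (hq : q.Prime) (htq : t ≤ q) (hcard : X.card ≤ q ^ t) :
    ∃ f : PiLp p (fun _ : ι => ℝ) → PiLp p (fun _ : Fin (q * q) => ℝ),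
      ∀ x ∈ X, ∀ y ∈ X,
        ((q : ℝ) + 1 - (t : ℝ)) ^ (1 / p.toReal) * ‖x - y‖ ≤ ‖f x - f y‖ ∧
          ‖f x - f y‖ ≤ (q : ℝ) ^ (1 / p.toReal) * ‖x - y‖ := by
  classical
  have : Fact q.Prime := ⟨hq⟩
  have hr1 : 1 ≤ p.toReal := toReal_ge_one hp
  have hr : 0 < p.toReal := lt_of_lt_of_le one_pos hr1
  -- injective coefficient strings for the points of `X`
  have hemb : Nonempty (↥X ↪ (Fin t → ZMod q)) := by
    apply Function.Embedding.nonempty_of_card_le
    simp only [Fintype.card_coe, Fintype.card_fun, Fintype.card_fin, ZMod.card]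
    exact hcard
  obtain ⟨e⟩ := hemb
  -- the polynomial of degree less than `t` attached to a point of `X`
  let P : ↥X → Polynomial (ZMod q) := fun x =>
    (((Polynomial.degreeLTEquiv (ZMod q) t).symm (e x) : ↥(Polynomial.degreeLT (ZMod q) t)) :
      Polynomial (ZMod q))
  have hPmem : ∀ x : ↥X, P x ∈ Polynomial.degreeLT (ZMod q) t := fun x => Subtype.property _
  have hPinj : Function.Injective P := by
    intro x y hxy
    have h1 : (Polynomial.degreeLTEquiv (ZMod q) t).symm (e x)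
        = (Polynomial.degreeLTEquiv (ZMod q) t).symm (e y) := Subtype.ext hxy
    exact e.injective ((Polynomial.degreeLTEquiv (ZMod q) t).symm.injective h1)
  -- the value table of the polynomial
  let d : ↥X → ZMod q → ZMod q := fun x s => (P x).eval s
  have hcardSC : Fintype.card (ZMod q × ZMod q) = q * q := by
    rw [Fintype.card_prod, ZMod.card]
  let Φ : PiLp p (fun _ : ZMod q × ZMod q => ℝ) ≃ₗᵢ[ℝ] PiLp p (fun _ : Fin (q * q) => ℝ) :=
    LinearIsometryEquiv.piLpCongrLeft p ℝ ℝ (Fintype.equivFinOfCardEq hcardSC)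
  let g : PiLp p (fun _ : ι => ℝ) → PiLp p (fun _ : ZMod q × ZMod q => ℝ) := fun x =>
    if h : x ∈ X then ‖x‖ • codeVec p (d ⟨x, h⟩) else 0
  refine ⟨fun x => Φ (g x), ?_⟩
  intro x hx y hy
  have hΦ : ‖Φ (g x) - Φ (g y)‖ = ‖g x - g y‖ := by
    rw [← map_sub, LinearIsometryEquiv.norm_map]
  rw [hΦ]
  by_cases hxy : x = y
  · subst hxy; simp
  have hgx : g x = ‖x‖ • codeVec p (d ⟨x, hx⟩) := by simp only [g]; rw [dif_pos hx]
  have hgy : g y = ‖y‖ • codeVec p (d ⟨y, hy⟩) := by simp only [g]; rw [dif_pos hy]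
  have hne : P ⟨x, hx⟩ ≠ P ⟨y, hy⟩ := by
    intro h
    apply hxy
    have := hPinj h
    exact congrArg Subtype.val this
  have hcnt := poly_differ_card t (P ⟨x, hx⟩) (P ⟨y, hy⟩) (hPmem _) (hPmem _) hne
  rw [ZMod.card] at hcnt
  have hm : q + 1 - t ≤ (Finset.univ.filter
      (fun s : ZMod q => d ⟨x, hx⟩ s ≠ d ⟨y, hy⟩ s)).card := by
    simp only [d]
    omega
  have hdist := disjoint_dist hp x y (hdisj x hx y hy hxy)
  have hup := code_upper hp (d ⟨x, hx⟩) (d ⟨y, hy⟩) (norm_nonneg x) (norm_nonneg y)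
  have hlo := code_lower hp (d ⟨x, hx⟩) (d ⟨y, hy⟩) (q + 1 - t) hm (norm_nonneg x)
    (norm_nonneg y)
  rw [ZMod.card] at hup
  rw [← hgx, ← hgy, ← hdist] at hup hlo
  have hcast : ((q + 1 - t : ℕ) : ℝ) = (q : ℝ) + 1 - (t : ℝ) := by
    rw [Nat.cast_sub (by omega)]
    push_cast
    ring
  rw [hcast] at hlo
  have hq0 : (0 : ℝ) ≤ (q : ℝ) := Nat.cast_nonneg q
  have hm0 : (0 : ℝ) ≤ (q : ℝ) + 1 - (t : ℝ) := by
    have : (t : ℝ) ≤ (q : ℝ) := by exact_mod_cast htq
    linarith
  have key : ∀ c : ℝ, 0 ≤ c →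
      (c ^ (1 / p.toReal) * ‖x - y‖) ^ p.toReal = c * ‖x - y‖ ^ p.toReal := by
    intro c hc
    rw [Real.mul_rpow (Real.rpow_nonneg hc _) (norm_nonneg _), ← Real.rpow_mul hc,
      one_div_mul_cancel hr.ne', Real.rpow_one]
  constructor
  · apply (Real.rpow_le_rpow_iff (mul_nonneg (Real.rpow_nonneg hm0 _) (norm_nonneg _))
      (norm_nonneg _) hr).mp
    rw [key _ hm0]
    exact hlo
  · apply (Real.rpow_le_rpow_iff (norm_nonneg _)
      (mul_nonneg (Real.rpow_nonneg hq0 _) (norm_nonneg _)) hr).mp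
    rw [key _ hq0]
    exact hup

end Vale.Agent.Results.P249.B_PolynomialCodes
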