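import Mathlib
import Vale.Agent.Results.P249.B_PolynomialCodes

open scoped ENNReal

namespace Vale.Agent.Results.P249.C_LogSquaredDimension

universe u

/-- Dimension reduction for disjointly supported point sets, for every distortion `D > 1`:
there is a constant `C`, depending only on `D`, such that for every `1 ≤ p < ∞` every finite set
`X` of `n ≥ 2` vectors of `l_p^m` (coordinates indexed by any finite type `ι`) with pairwise
disjoint supports admits a map `f` into `l_p^d` of distortion at most `D` (with some scale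
`s > 0`), where `d ≤ C * (log n) ^ 2`. -/
theorem result (D : ℝ) (hD : 1 < D) :
    ∃ C : ℝ, ∀ (p : ℝ≥0∞) [Fact (1 ≤ p)], p ≠ ⊤ → ∀ (ι : Type u) [Fintype ι]
      (X : Finset (PiLp p (fun _ : ι => ℝ))),
      (∀ x ∈ X, ∀ y ∈ X, x ≠ y → ∀ k : ι, x.ofLp k = 0 ∨ y.ofLp k = 0) → 2 ≤ X.card →
      ∃ d : ℕ, (d : ℝ) ≤ C * (Real.log (X.card : ℝ)) ^ 2 ∧
        ∃ (f : PiLp p (fun _ : ι => ℝ) → PiLp p (fun _ : Fin d => ℝ)) (s : ℝ), 0 < s ∧
          ∀ x ∈ X, ∀ y ∈ X,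
            s * ‖x - y‖ ≤ ‖f x - f y‖ ∧ ‖f x - f y‖ ≤ D * s * ‖x - y‖ := by
  have hD1 : 0 < D - 1 := by linarith
  obtain ⟨K, hK⟩ := exists_nat_ge (D / (D - 1))
  have hKD : D ≤ (K : ℝ) * (D - 1) := by
    rw [div_le_iff₀ hD1] at hK
    exact hK
  have hKpos : 0 < K := by
    rcases Nat.eq_zero_or_pos K with h | h
    · subst h
      simp at hKD
      linarith
    · exact h
  have hlog2 : 0 < Real.log 2 := Real.log_pos (by norm_num)
  refine ⟨16 * (K : ℝ) ^ 2 / (Real.log 2) ^ 2, ?_⟩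
  intro p _ hp ι _ X hdisj hcard
  have hr1 : 1 ≤ p.toReal := B_PolynomialCodes.toReal_ge_one hp
  have hr : 0 < p.toReal := lt_of_lt_of_le one_pos hr1
  have ht_pos : 0 < Nat.clog 2 X.card := Nat.clog_pos (by norm_num) (by omega)
  have hn_le : X.card ≤ 2 ^ Nat.clog 2 X.card := Nat.le_pow_clog (by norm_num) X.card
  have hn_gt : 2 ^ (Nat.clog 2 X.card - 1) < X.card := by
    have := Nat.pow_pred_clog_lt_self (b := 2) (by norm_num) (x := X.card) (by omega)
    simpa [Nat.pred_eq_sub_one] using this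
  generalize Nat.clog 2 X.card = t at ht_pos hn_le hn_gt
  obtain ⟨q, hqp, hq_lt, hq_le⟩ :=
    Nat.exists_prime_lt_and_le_two_mul (K * t) (Nat.mul_pos hKpos ht_pos).ne'
  have hKt : t ≤ K * t := Nat.le_mul_of_pos_left t hKpos
  have htq : t ≤ q := le_trans hKt hq_lt.le
  have hcard' : X.card ≤ q ^ t := le_trans hn_le (Nat.pow_le_pow_left hqp.two_le t)
  obtain ⟨f, hf⟩ := B_PolynomialCodes.result p hp X hdisj t q hqp htq hcard'
  have htq' : (t : ℝ) ≤ (q : ℝ) := by exact_mod_cast htq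
  have hm1 : (1 : ℝ) ≤ (q : ℝ) + 1 - (t : ℝ) := by linarith
  have hm0 : (0 : ℝ) < (q : ℝ) + 1 - (t : ℝ) := by linarith
  have hq0 : (0 : ℝ) ≤ (q : ℝ) := Nat.cast_nonneg q
  have ht0 : (0 : ℝ) ≤ (t : ℝ) := Nat.cast_nonneg t
  have hK0 : (0 : ℝ) ≤ (K : ℝ) := Nat.cast_nonneg K
  refine ⟨q * q, ?_, f, ((q : ℝ) + 1 - (t : ℝ)) ^ (1 / p.toReal), Real.rpow_pos_of_pos hm0 _, ?_⟩
  · -- the dimension bound
    have hnpos : (0 : ℝ) < (X.card : ℝ) := by
      have : 0 < X.card := by omega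
      exact_mod_cast this
    have h1 : ((2 : ℝ)) ^ (t - 1) < (X.card : ℝ) := by exact_mod_cast hn_gt
    have h2 := Real.log_lt_log (by positivity) h1
    rw [Real.log_pow] at h2
    have h3 : ((t - 1 : ℕ) : ℝ) = (t : ℝ) - 1 := by
      rw [Nat.cast_sub ht_pos]
      simp
    rw [h3] at h2
    have h4 : Real.log 2 ≤ Real.log (X.card : ℝ) :=
      Real.log_le_log (by norm_num) (by exact_mod_cast hcard)
    have h5 : ((t : ℝ) - 1) * Real.log 2 = (t : ℝ) * Real.log 2 - Real.log 2 := by ring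
    have hL : (t : ℝ) * Real.log 2 ≤ 2 * Real.log (X.card : ℝ) := by linarith
    have ht_le : (t : ℝ) ≤ 2 * Real.log (X.card : ℝ) / Real.log 2 := by
      rw [le_div_iff₀ hlog2]
      exact hL
    have hq_le' : (q : ℝ) ≤ 2 * ((K : ℝ) * (t : ℝ)) := by exact_mod_cast hq_le
    have hb : (q : ℝ) ≤ 4 * (K : ℝ) * Real.log (X.card : ℝ) / Real.log 2 := by
      calc (q : ℝ) ≤ 2 * ((K : ℝ) * (t : ℝ)) := hq_le'
        _ ≤ 2 * ((K : ℝ) * (2 * Real.log (X.card : ℝ) / Real.log 2)) := by gcongr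
        _ = 4 * (K : ℝ) * Real.log (X.card : ℝ) / Real.log 2 := by ring
    push_cast
    calc (q : ℝ) * (q : ℝ)
        ≤ (4 * (K : ℝ) * Real.log (X.card : ℝ) / Real.log 2)
            * (4 * (K : ℝ) * Real.log (X.card : ℝ) / Real.log 2) :=
          mul_le_mul hb hb hq0 (le_trans hq0 hb)
      _ = 16 * (K : ℝ) ^ 2 / (Real.log 2) ^ 2 * (Real.log (X.card : ℝ)) ^ 2 := by
          field_simp
          ring
  · intro x hx y hy
    obtain ⟨hlo, hup⟩ := hf x hx y hy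
    refine ⟨hlo, le_trans hup ?_⟩
    apply mul_le_mul_of_nonneg_right _ (norm_nonneg _)
    -- `q ^ (1 / p) ≤ D * (q + 1 - t) ^ (1 / p)`
    have hq_ge : (K : ℝ) * (t : ℝ) ≤ (q : ℝ) := by exact_mod_cast hq_lt.le
    have hqm : (q : ℝ) ≤ D * ((q : ℝ) + 1 - (t : ℝ)) := by
      have e1 : (D - 1) * ((K : ℝ) * (t : ℝ)) ≤ (D - 1) * (q : ℝ) :=
        mul_le_mul_of_nonneg_left hq_ge hD1.le
      have e2 : D * (t : ℝ) ≤ (K : ℝ) * (D - 1) * (t : ℝ) :=
        mul_le_mul_of_nonneg_right hKD ht0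
      nlinarith
    have hexp0 : 0 ≤ 1 / p.toReal := by positivity
    have hexp1 : 1 / p.toReal ≤ 1 := by
      rw [div_le_one hr]
      exact hr1
    calc (q : ℝ) ^ (1 / p.toReal)
        ≤ (D * ((q : ℝ) + 1 - (t : ℝ))) ^ (1 / p.toReal) := Real.rpow_le_rpow hq0 hqm hexp0
      _ = D ^ (1 / p.toReal) * ((q : ℝ) + 1 - (t : ℝ)) ^ (1 / p.toReal) :=
          Real.mul_rpow (by linarith) hm0.le
      _ ≤ D * ((q : ℝ) + 1 - (t : ℝ)) ^ (1 / p.toReal) := by
          apply mul_le_mul_of_nonneg_right _ (Real.rpow_nonneg hm0.le _)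
          calc D ^ (1 / p.toReal) ≤ D ^ (1 : ℝ) :=
                Real.rpow_le_rpow_of_exponent_le hD.le hexp1
            _ = D := Real.rpow_one D

end Vale.Agent.Results.P249.C_LogSquaredDimension
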