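import Mathlib
import Vale.Agent.Results.P249.B_PolynomialCodes

open scoped ENNReal

namespace Vale.Agent.Results.P249.D_LogDimension

universe u

section code
variable {S C : Type*} [Fintype S] [DecidableEq C]

/-- number of positions at which two strings agree -/
def agree (u v : S → C) : ℕ := (Finset.univ.filter (fun s : S => u s = v s)).card

theorem agree_comm (u v : S → C) : agree u v = agree v u := by
  unfold agree
  congr 1
  ext s
  simp [eq_comm]

theorem agree_self (u : S → C) : agree u u = Fintype.card S := by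
  simp [agree]

theorem differ_ge (u v : S → C) :
    Fintype.card S ≤ agree u v + (Finset.univ.filter (fun s : S => u s ≠ v s)).card := by
  have hsplit : (Finset.univ.filter (fun s : S => u s = v s)).card
      + (Finset.univ.filter (fun s : S => u s ≠ v s)).card = Fintype.card S := by
    rw [← Finset.card_univ]
    exact Finset.card_filter_add_card_filter_not (s := (Finset.univ : Finset S))
      (fun s : S => u s = v s)
  unfold agree
  exact le_of_eq hsplit.symm

variable [Fintype C] [DecidableEq S]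

/-- the number of strings with prescribed letters on a set `A` of positions -/
theorem card_prescribed (u : S → C) (A : Finset S) :
    (Finset.univ.filter (fun v : S → C => ∀ s ∈ A, v s = u s)).card
      ≤ Fintype.card C ^ (Fintype.card S - A.card) := by
  have h1 : (Finset.univ.filter (fun v : S → C => ∀ s ∈ A, v s = u s)).card
      ≤ (Finset.univ : Finset ({s : S // s ∉ A} → C)).card := by
    apply Finset.card_le_card_of_injOn (fun v => fun s : {s : S // s ∉ A} => v s.1)
    · intro v _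
      exact Finset.mem_univ _
    · intro v hv w hw h
      rw [Finset.mem_coe, Finset.mem_filter] at hv hw
      have hv := hv.2
      have hw := hw.2
      funext s
      by_cases hs : s ∈ A
      · rw [hv s hs, hw s hs]
      · exact congrFun h ⟨s, hs⟩
  refine le_trans h1 (le_of_eq ?_)
  rw [Finset.card_univ, Fintype.card_fun, Fintype.card_subtype_compl, Fintype.card_coe]

/-- the number of strings agreeing with `u` in more than `a` positions -/
theorem ball_card (u : S → C) (a : ℕ) (hC : 0 < Fintype.card C) :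
    (Finset.univ.filter (fun v : S → C => a + 1 ≤ agree u v)).card
      ≤ 2 ^ Fintype.card S * Fintype.card C ^ (Fintype.card S - (a + 1)) := by
  have hsub : Finset.univ.filter (fun v : S → C => a + 1 ≤ agree u v)
      ⊆ (Finset.univ.filter (fun A : Finset S => a + 1 ≤ A.card)).biUnion
          (fun A => Finset.univ.filter (fun v : S → C => ∀ s ∈ A, v s = u s)) := by
    intro v hv
    simp only [Finset.mem_filter, Finset.mem_univ, true_and] at hv
    rw [Finset.mem_biUnion]
    refine ⟨Finset.univ.filter (fun s : S => u s = v s), ?_, ?_⟩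
    · simp only [Finset.mem_filter, Finset.mem_univ, true_and]
      exact hv
    · simp only [Finset.mem_filter, Finset.mem_univ, true_and]
      intro s hs
      exact hs.symm
  calc (Finset.univ.filter (fun v : S → C => a + 1 ≤ agree u v)).card
      ≤ ((Finset.univ.filter (fun A : Finset S => a + 1 ≤ A.card)).biUnion
          (fun A => Finset.univ.filter (fun v : S → C => ∀ s ∈ A, v s = u s))).card :=
        Finset.card_le_card hsub
    _ ≤ ∑ A ∈ Finset.univ.filter (fun A : Finset S => a + 1 ≤ A.card),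
          (Finset.univ.filter (fun v : S → C => ∀ s ∈ A, v s = u s)).card :=
        Finset.card_biUnion_le
    _ ≤ ∑ _A ∈ Finset.univ.filter (fun A : Finset S => a + 1 ≤ A.card),
          Fintype.card C ^ (Fintype.card S - (a + 1)) := by
        apply Finset.sum_le_sum
        intro A hA
        simp only [Finset.mem_filter, Finset.mem_univ, true_and] at hA
        refine le_trans (card_prescribed u A) ?_
        exact Nat.pow_le_pow_right hC (by omega)
    _ = (Finset.univ.filter (fun A : Finset S => a + 1 ≤ A.card)).card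
          * Fintype.card C ^ (Fintype.card S - (a + 1)) := by
        rw [Finset.sum_const, smul_eq_mul]
    _ ≤ 2 ^ Fintype.card S * Fintype.card C ^ (Fintype.card S - (a + 1)) := by
        apply Nat.mul_le_mul_right
        calc (Finset.univ.filter (fun A : Finset S => a + 1 ≤ A.card)).card
            ≤ (Finset.univ : Finset (Finset S)).card :=
              Finset.card_le_card (Finset.filter_subset _ _)
          _ = 2 ^ Fintype.card S := by rw [Finset.card_univ, Fintype.card_finset]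

/-- greedy choice of a code: `n` strings that pairwise agree in at most `a` positions -/
theorem exists_code (a n : ℕ) (hC : 0 < Fintype.card C) (ha : a < Fintype.card S)
    (h : n * (2 ^ Fintype.card S * Fintype.card C ^ (Fintype.card S - (a + 1)))
      ≤ Fintype.card C ^ Fintype.card S) :
    ∀ k ≤ n, ∃ T : Finset (S → C), T.card = k ∧
      ∀ u ∈ T, ∀ v ∈ T, u ≠ v → agree u v ≤ a := by
  intro k
  induction k with
  | zero =>
    intro _
    exact ⟨∅, rfl, by simp⟩
  | succ k ih =>
    intro hk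
    obtain ⟨T, hT, hval⟩ := ih (by omega)
    have hBpos : 0 < 2 ^ Fintype.card S * Fintype.card C ^ (Fintype.card S - (a + 1)) :=
      Nat.mul_pos (Nat.pow_pos (by norm_num)) (Nat.pow_pos hC)
    have hBad : (T.biUnion
        (fun u => Finset.univ.filter (fun v : S → C => a + 1 ≤ agree u v))).card
        ≤ k * (2 ^ Fintype.card S * Fintype.card C ^ (Fintype.card S - (a + 1))) := by
      calc (T.biUnion (fun u => Finset.univ.filter (fun v : S → C => a + 1 ≤ agree u v))).card
          ≤ ∑ u ∈ T, (Finset.univ.filter (fun v : S → C => a + 1 ≤ agree u v)).card :=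
            Finset.card_biUnion_le
        _ ≤ ∑ _u ∈ T, (2 ^ Fintype.card S * Fintype.card C ^ (Fintype.card S - (a + 1))) :=
            Finset.sum_le_sum (fun u _ => ball_card u a hC)
        _ = k * (2 ^ Fintype.card S * Fintype.card C ^ (Fintype.card S - (a + 1))) := by
            rw [Finset.sum_const, smul_eq_mul, hT]
    have hlt : (T.biUnion
        (fun u => Finset.univ.filter (fun v : S → C => a + 1 ≤ agree u v))).card
        < Fintype.card (S → C) := by
      rw [Fintype.card_fun]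
      have h2 : k * (2 ^ Fintype.card S * Fintype.card C ^ (Fintype.card S - (a + 1)))
          < n * (2 ^ Fintype.card S * Fintype.card C ^ (Fintype.card S - (a + 1))) :=
        Nat.mul_lt_mul_of_pos_right (by omega) hBpos
      omega
    obtain ⟨v, hv⟩ : ∃ v, v ∉ T.biUnion
        (fun u => Finset.univ.filter (fun v : S → C => a + 1 ≤ agree u v)) := by
      by_contra hcon
      have h3 := Finset.eq_univ_iff_forall.mpr
        (fun v => by_contra (fun hv => hcon ⟨v, hv⟩))
      rw [h3, Finset.card_univ] at hlt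
      exact lt_irrefl _ hlt
    have hvT : ∀ u ∈ T, agree u v ≤ a := by
      intro u hu
      by_contra hcon
      apply hv
      rw [Finset.mem_biUnion]
      refine ⟨u, hu, ?_⟩
      simp only [Finset.mem_filter, Finset.mem_univ, true_and]
      omega
    have hvnot : v ∉ T := by
      intro hvmem
      have h4 := hvT v hvmem
      rw [agree_self] at h4
      omega
    refine ⟨insert v T, by rw [Finset.card_insert_of_notMem hvnot, hT], ?_⟩
    intro u hu w hw huw
    rw [Finset.mem_insert] at hu hw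
    rcases hu with h1 | h1
    · rcases hw with h2 | h2
      · exact absurd (h1.trans h2.symm) huw
      · rw [h1, agree_comm]
        exact hvT w h2
    · rcases hw with h2 | h2
      · rw [h2]
        exact hvT u h1
      · exact hval u h1 w h2 huw

omit [DecidableEq S] in
/-- a code with few agreements gives an embedding of a disjointly supported point set -/
theorem embed_of_code {p : ℝ≥0∞} [Fact (1 ≤ p)] (hp : p ≠ ⊤) {ι : Type*} [Fintype ι]
    (X : Finset (PiLp p (fun _ : ι => ℝ)))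
    (hdisj : ∀ x ∈ X, ∀ y ∈ X, x ≠ y → ∀ k : ι, x.ofLp k = 0 ∨ y.ofLp k = 0)
    (T : Finset (S → C)) (a : ℕ) (hTcard : X.card ≤ T.card)
    (hT : ∀ u ∈ T, ∀ v ∈ T, u ≠ v → agree u v ≤ a) (ha : a ≤ Fintype.card S) :
    ∃ g : PiLp p (fun _ : ι => ℝ) → PiLp p (fun _ : S × C => ℝ),
      ∀ x ∈ X, ∀ y ∈ X,
        ((Fintype.card S : ℝ) - (a : ℝ)) ^ (1 / p.toReal) * ‖x - y‖ ≤ ‖g x - g y‖ ∧
          ‖g x - g y‖ ≤ (Fintype.card S : ℝ) ^ (1 / p.toReal) * ‖x - y‖ := by
  have hr1 : 1 ≤ p.toReal := B_PolynomialCodes.toReal_ge_one hp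
  have hr : 0 < p.toReal := lt_of_lt_of_le one_pos hr1
  have hemb : Nonempty (↥X ↪ ↥T) := by
    apply Function.Embedding.nonempty_of_card_le
    simp only [Fintype.card_coe]
    exact hTcard
  obtain ⟨e⟩ := hemb
  have key0 : ∀ x ∈ X, ∀ y ∈ X, ∀ (hx : x ∈ X) (hy : y ∈ X), x ≠ y →
      ((Fintype.card S : ℝ) - (a : ℝ)) * ‖x - y‖ ^ p.toReal
        ≤ ‖‖x‖ • B_PolynomialCodes.codeVec p (e ⟨x, hx⟩ : S → C)
            - ‖y‖ • B_PolynomialCodes.codeVec p (e ⟨y, hy⟩ : S → C)‖ ^ p.toReal ∧
      ‖‖x‖ • B_PolynomialCodes.codeVec p (e ⟨x, hx⟩ : S → C)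
            - ‖y‖ • B_PolynomialCodes.codeVec p (e ⟨y, hy⟩ : S → C)‖ ^ p.toReal
        ≤ (Fintype.card S : ℝ) * ‖x - y‖ ^ p.toReal := by
    intro x _ y _ hx hy hxy
    have hne : (e ⟨x, hx⟩ : S → C) ≠ (e ⟨y, hy⟩ : S → C) := by
      intro h
      apply hxy
      have h1 : e ⟨x, hx⟩ = e ⟨y, hy⟩ := Subtype.ext h
      exact congrArg Subtype.val (e.injective h1)
    have hag := hT _ (e ⟨x, hx⟩).2 _ (e ⟨y, hy⟩).2 hne
    have hge := differ_ge (e ⟨x, hx⟩ : S → C) (e ⟨y, hy⟩ : S → C)
    have hm : Fintype.card S - a ≤ (Finset.univ.filter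
        (fun s : S => (e ⟨x, hx⟩ : S → C) s ≠ (e ⟨y, hy⟩ : S → C) s)).card := by
      omega
    have hdist := B_PolynomialCodes.disjoint_dist hp x y (hdisj x hx y hy hxy)
    have hup := B_PolynomialCodes.code_upper hp (e ⟨x, hx⟩ : S → C) (e ⟨y, hy⟩ : S → C)
      (norm_nonneg x) (norm_nonneg y)
    have hlo := B_PolynomialCodes.code_lower hp (e ⟨x, hx⟩ : S → C) (e ⟨y, hy⟩ : S → C)
      (Fintype.card S - a) hm (norm_nonneg x) (norm_nonneg y)
    rw [← hdist] at hup hlo
    have hcast : ((Fintype.card S - a : ℕ) : ℝ) = (Fintype.card S : ℝ) - (a : ℝ) :=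
      Nat.cast_sub ha
    rw [hcast] at hlo
    exact ⟨hlo, hup⟩
  classical
  let g : PiLp p (fun _ : ι => ℝ) → PiLp p (fun _ : S × C => ℝ) := fun x =>
    if h : x ∈ X then ‖x‖ • B_PolynomialCodes.codeVec p (e ⟨x, h⟩ : S → C) else 0
  refine ⟨g, ?_⟩
  intro x hx y hy
  by_cases hxy : x = y
  · subst hxy
    simp
  have hgx : g x = ‖x‖ • B_PolynomialCodes.codeVec p (e ⟨x, hx⟩ : S → C) := by
    simp only [g]
    rw [dif_pos hx]
  have hgy : g y = ‖y‖ • B_PolynomialCodes.codeVec p (e ⟨y, hy⟩ : S → C) := by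
    simp only [g]
    rw [dif_pos hy]
  obtain ⟨hlo, hup⟩ := key0 x hx y hy hx hy hxy
  rw [← hgx, ← hgy] at hlo hup
  have hS0 : (0 : ℝ) ≤ (Fintype.card S : ℝ) := Nat.cast_nonneg _
  have hm0 : (0 : ℝ) ≤ (Fintype.card S : ℝ) - (a : ℝ) := by
    have : (a : ℝ) ≤ (Fintype.card S : ℝ) := by exact_mod_cast ha
    linarith
  have key : ∀ c : ℝ, 0 ≤ c →
      (c ^ (1 / p.toReal) * ‖x - y‖) ^ p.toReal = c * ‖x - y‖ ^ p.toReal := by
    intro c hc
    rw [Real.mul_rpow (Real.rpow_nonneg hc _) (norm_nonneg _), ← Real.rpow_mul hc,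
      one_div_mul_cancel hr.ne', Real.rpow_one]
  constructor
  · apply (Real.rpow_le_rpow_iff (mul_nonneg (Real.rpow_nonneg hm0 _) (norm_nonneg _))
      (norm_nonneg _) hr).mp
    rw [key _ hm0]
    exact hlo
  · apply (Real.rpow_le_rpow_iff (norm_nonneg _)
      (mul_nonneg (Real.rpow_nonneg hS0 _) (norm_nonneg _)) hr).mp
    rw [key _ hS0]
    exact hup

end code

/-- Dimension reduction for disjointly supported point sets in logarithmic dimension: for every
distortion `D > 1` there is a constant `C`, depending only on `D`, such that for every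
`1 ≤ p < ∞` every finite set `X` of `n ≥ 2` vectors of `l_p^m` (coordinates indexed by any
finite type `ι`) with pairwise disjoint supports admits a map `f` into `l_p^d` of distortion at
most `D` (with some scale `s > 0`), where `d ≤ C * log n`. -/
theorem result (D : ℝ) (hD : 1 < D) :
    ∃ C : ℝ, ∀ (p : ℝ≥0∞) [Fact (1 ≤ p)], p ≠ ⊤ → ∀ (ι : Type u) [Fintype ι]
      (X : Finset (PiLp p (fun _ : ι => ℝ))),
      (∀ x ∈ X, ∀ y ∈ X, x ≠ y → ∀ k : ι, x.ofLp k = 0 ∨ y.ofLp k = 0) → 2 ≤ X.card →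
      ∃ d : ℕ, (d : ℝ) ≤ C * Real.log (X.card : ℝ) ∧
        ∃ (f : PiLp p (fun _ : ι => ℝ) → PiLp p (fun _ : Fin d => ℝ)) (s : ℝ), 0 < s ∧
          ∀ x ∈ X, ∀ y ∈ X,
            s * ‖x - y‖ ≤ ‖f x - f y‖ ∧ ‖f x - f y‖ ≤ D * s * ‖x - y‖ := by
  have hD1 : 0 < D - 1 := by linarith
  obtain ⟨K, hK⟩ := exists_nat_ge (D / (D - 1))
  have hKD : D ≤ (K : ℝ) * (D - 1) := by
    rw [div_le_iff₀ hD1] at hK
    exact hK
  have hK2 : 2 ≤ K := by
    by_contra hcon
    have hK1 : (K : ℝ) ≤ 1 := by
      have : K ≤ 1 := by omega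
      exact_mod_cast this
    nlinarith
  have hlog2 : 0 < Real.log 2 := Real.log_pos (by norm_num)
  refine ⟨(K : ℝ) * 2 ^ (K + 1) * 2 / Real.log 2, ?_⟩
  intro p _ hp ι _ X hdisj hcard
  have hr1 : 1 ≤ p.toReal := B_PolynomialCodes.toReal_ge_one hp
  have hr : 0 < p.toReal := lt_of_lt_of_le one_pos hr1
  have ht_pos : 0 < Nat.clog 2 X.card := Nat.clog_pos (by norm_num) (by omega)
  have hn_le : X.card ≤ 2 ^ Nat.clog 2 X.card := Nat.le_pow_clog (by norm_num) X.card
  have hn_gt : 2 ^ (Nat.clog 2 X.card - 1) < X.card := by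
    have := Nat.pow_pred_clog_lt_self (b := 2) (by norm_num) (x := X.card) (by omega)
    simpa [Nat.pred_eq_sub_one] using this
  generalize Nat.clog 2 X.card = t at ht_pos hn_le hn_gt
  -- the code: `K * t` positions, alphabet of size `2 ^ (K + 1)`, agreements at most `t`
  have htm : t + 1 ≤ K * t := by nlinarith
  have hGV : X.card * (2 ^ Fintype.card (Fin (K * t))
      * Fintype.card (Fin (2 ^ (K + 1))) ^ (Fintype.card (Fin (K * t)) - (t + 1)))
      ≤ Fintype.card (Fin (2 ^ (K + 1))) ^ Fintype.card (Fin (K * t)) := by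
    simp only [Fintype.card_fin]
    have e1 : (2 ^ (K + 1)) ^ (K * t) = (2 ^ (K + 1)) ^ (t + 1) * (2 ^ (K + 1)) ^ (K * t - (t + 1)) := by
      rw [← pow_add]
      congr 1
      omega
    have e2 : X.card * 2 ^ (K * t) ≤ (2 ^ (K + 1)) ^ (t + 1) := by
      calc X.card * 2 ^ (K * t) ≤ 2 ^ t * 2 ^ (K * t) := Nat.mul_le_mul_right _ hn_le
        _ = 2 ^ (t + K * t) := by rw [← pow_add]
        _ ≤ 2 ^ ((K + 1) * (t + 1)) := Nat.pow_le_pow_right (by norm_num) (by nlinarith)
        _ = (2 ^ (K + 1)) ^ (t + 1) := by rw [← pow_mul]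
    rw [e1, ← mul_assoc]
    exact Nat.mul_le_mul_right _ e2
  have hCpos : 0 < Fintype.card (Fin (2 ^ (K + 1))) := by
    simp only [Fintype.card_fin]
    positivity
  have hta : t < Fintype.card (Fin (K * t)) := by
    simp only [Fintype.card_fin]
    omega
  obtain ⟨T, hTcard, hT⟩ := exists_code (S := Fin (K * t)) (C := Fin (2 ^ (K + 1))) t X.card
    hCpos hta hGV X.card le_rfl
  obtain ⟨g, hg⟩ := embed_of_code hp X hdisj T t (le_of_eq hTcard.symm) hT hta.le
  simp only [Fintype.card_fin] at hg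
  let Φ : PiLp p (fun _ : Fin (K * t) × Fin (2 ^ (K + 1)) => ℝ) ≃ₗᵢ[ℝ]
      PiLp p (fun _ : Fin (K * t * 2 ^ (K + 1)) => ℝ) :=
    LinearIsometryEquiv.piLpCongrLeft p ℝ ℝ finProdFinEquiv
  have ht0 : (0 : ℝ) ≤ (t : ℝ) := Nat.cast_nonneg t
  have ht1 : (1 : ℝ) ≤ (t : ℝ) := by exact_mod_cast ht_pos
  have hK2' : (2 : ℝ) ≤ (K : ℝ) := by exact_mod_cast hK2
  have hmcast : ((K * t : ℕ) : ℝ) = (K : ℝ) * (t : ℝ) := by push_cast; ring
  rw [hmcast] at hg
  have hm0 : (0 : ℝ) < (K : ℝ) * (t : ℝ) - (t : ℝ) := by nlinarith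
  refine ⟨K * t * 2 ^ (K + 1), ?_, fun x => Φ (g x),
    ((K : ℝ) * (t : ℝ) - (t : ℝ)) ^ (1 / p.toReal), Real.rpow_pos_of_pos hm0 _, ?_⟩
  · -- the dimension bound
    have hnpos : (0 : ℝ) < (X.card : ℝ) := by
      have : 0 < X.card := by omega
      exact_mod_cast this
    have h1 : ((2 : ℝ)) ^ (t - 1) < (X.card : ℝ) := by exact_mod_cast hn_gt
    have h2 := Real.log_lt_log (by positivity) h1
    rw [Real.log_pow] at h2
    have h3 : ((t - 1 : ℕ) : ℝ) = (t : ℝ) - 1 := by
      rw [Nat.cast_sub ht_pos]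
      simp
    rw [h3] at h2
    have h4 : Real.log 2 ≤ Real.log (X.card : ℝ) :=
      Real.log_le_log (by norm_num) (by exact_mod_cast hcard)
    have h5 : ((t : ℝ) - 1) * Real.log 2 = (t : ℝ) * Real.log 2 - Real.log 2 := by ring
    have hL : (t : ℝ) * Real.log 2 ≤ 2 * Real.log (X.card : ℝ) := by linarith
    have ht_le : (t : ℝ) ≤ 2 * Real.log (X.card : ℝ) / Real.log 2 := by
      rw [le_div_iff₀ hlog2]
      exact hL
    have hKq : (0 : ℝ) ≤ (K : ℝ) * 2 ^ (K + 1) := by positivity
    push_cast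
    calc (K : ℝ) * (t : ℝ) * 2 ^ (K + 1) = ((K : ℝ) * 2 ^ (K + 1)) * (t : ℝ) := by ring
      _ ≤ ((K : ℝ) * 2 ^ (K + 1)) * (2 * Real.log (X.card : ℝ) / Real.log 2) :=
          mul_le_mul_of_nonneg_left ht_le hKq
      _ = (K : ℝ) * 2 ^ (K + 1) * 2 / Real.log 2 * Real.log (X.card : ℝ) := by ring
  · intro x hx y hy
    have hΦ : ‖Φ (g x) - Φ (g y)‖ = ‖g x - g y‖ := by
      rw [← map_sub, LinearIsometryEquiv.norm_map]
    rw [hΦ]
    obtain ⟨hlo, hup⟩ := hg x hx y hy
    refine ⟨hlo, le_trans hup ?_⟩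
    apply mul_le_mul_of_nonneg_right _ (norm_nonneg _)
    have hqm : (K : ℝ) * (t : ℝ) ≤ D * ((K : ℝ) * (t : ℝ) - (t : ℝ)) := by
      have e2 : D * (t : ℝ) ≤ (K : ℝ) * (D - 1) * (t : ℝ) :=
        mul_le_mul_of_nonneg_right hKD ht0
      nlinarith
    have hexp0 : 0 ≤ 1 / p.toReal := by positivity
    have hexp1 : 1 / p.toReal ≤ 1 := by
      rw [div_le_one hr]
      exact hr1
    have hKt0 : (0 : ℝ) ≤ (K : ℝ) * (t : ℝ) := by positivity
    calc ((K : ℝ) * (t : ℝ)) ^ (1 / p.toReal)
        ≤ (D * ((K : ℝ) * (t : ℝ) - (t : ℝ))) ^ (1 / p.toReal) :=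
          Real.rpow_le_rpow hKt0 hqm hexp0
      _ = D ^ (1 / p.toReal) * ((K : ℝ) * (t : ℝ) - (t : ℝ)) ^ (1 / p.toReal) :=
          Real.mul_rpow (by linarith) hm0.le
      _ ≤ D * ((K : ℝ) * (t : ℝ) - (t : ℝ)) ^ (1 / p.toReal) := by
          apply mul_le_mul_of_nonneg_right _ (Real.rpow_nonneg hm0.le _)
          calc D ^ (1 / p.toReal) ≤ D ^ (1 : ℝ) :=
                Real.rpow_le_rpow_of_exponent_le hD.le hexp1
            _ = D := Real.rpow_one D

end Vale.Agent.Results.P249.D_LogDimension
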